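import Mathlib

/-!
# P159, part C4: a cubic form with vanishing slot sums, from block trilinear bounds

`T x y z` is a kernel on a finite set `V`, `β : V → I` cuts `V` into blocks. The hypothesis is a
bound of the trilinear form on bounded functions carried by blocks (arbitrary signs), NOT a bound
of the absolute sum of the kernel. The conclusion bounds `T[ψ,ψ,ψ]` by the oscillations of `ψ`.
-/

namespace Vale.Agent.P159.TM.H825

open Finset

set_option linter.unusedSectionVars false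

variable {V I : Type*} [Fintype V] [Fintype I] [DecidableEq I]

/-- the trilinear form of a kernel -/
noncomputable def tri (T : V → V → V → ℝ) (f g h : V → ℝ) : ℝ :=
  ∑ p : V × V × V, T p.1 p.2.1 p.2.2 * (f p.1 * g p.2.1 * h p.2.2)

theorem tri_eq (T : V → V → V → ℝ) (f g h : V → ℝ) :
    tri T f g h = ∑ x, ∑ y, ∑ z, T x y z * (f x * g y * h z) := by
  simp only [tri, Fintype.sum_prod_type]

/-- `f` is carried by the block `i` and bounded by `r` -/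
def Sub (β : V → I) (i : I) (r : ℝ) (f : V → ℝ) : Prop :=
  ∀ x, |f x| ≤ if β x = i then r else 0

/-- block trilinear bound -/
def TriBd (T : V → V → V → ℝ) (β : V → I) (K : I → I → I → ℝ) : Prop :=
  ∀ i j k (f g h : V → ℝ), Sub β i 1 f → Sub β j 1 g → Sub β k 1 h → |tri T f g h| ≤ K i j k

theorem Sub.zero (β : V → I) (i : I) : Sub β i 1 (fun _ => 0) := by
  intro x
  simp only [abs_zero]
  split_ifs <;> norm_num

theorem TriBd.nonneg {T : V → V → V → ℝ} {β : V → I} {K : I → I → I → ℝ} (h : TriBd T β K)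
    (i j k : I) : 0 ≤ K i j k :=
  (abs_nonneg _).trans (h i j k _ _ _ (Sub.zero β i) (Sub.zero β j) (Sub.zero β k))

theorem tri_smul (T : V → V → V → ℝ) (a b c : ℝ) (f g h : V → ℝ) :
    tri T (fun x => a * f x) (fun x => b * g x) (fun x => c * h x) = a * b * c * tri T f g h := by
  unfold tri
  rw [Finset.mul_sum]
  refine Finset.sum_congr rfl fun p _ => ?_
  ring

theorem Sub.scale {β : V → I} {i : I} {r : ℝ} {f : V → ℝ} (hr : 0 < r) (hf : Sub β i r f) :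
    Sub β i 1 (fun x => r⁻¹ * f x) := by
  intro x
  have h := hf x
  rw [abs_mul, abs_inv, abs_of_pos hr]
  split_ifs at h ⊢ with hx
  · rw [inv_mul_le_iff₀ hr]
    linarith
  · have : |f x| = 0 := le_antisymm h (abs_nonneg _)
    rw [this, mul_zero]

theorem Sub.eq_zero {β : V → I} {i : I} {f : V → ℝ} (hf : Sub β i 0 f) : f = fun _ => 0 := by
  funext x
  have h := hf x
  have h2 : |f x| ≤ 0 := by
    split_ifs at h <;> exact h
  exact abs_eq_zero.1 (le_antisymm h2 (abs_nonneg _))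

theorem TriBd.scaled {T : V → V → V → ℝ} {β : V → I} {K : I → I → I → ℝ} (hT : TriBd T β K)
    {i j k : I} {a b c : ℝ} (ha : 0 ≤ a) (hb : 0 ≤ b) (hc : 0 ≤ c) {f g h : V → ℝ}
    (hf : Sub β i a f) (hg : Sub β j b g) (hh : Sub β k c h) :
    |tri T f g h| ≤ K i j k * (a * b * c) := by
  have hK := hT.nonneg i j k
  rcases ha.eq_or_lt with rfl | ha
  · rw [hf.eq_zero]
    simp [tri]
  rcases hb.eq_or_lt with rfl | hb
  · rw [hg.eq_zero]
    simp [tri]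
  rcases hc.eq_or_lt with rfl | hc
  · rw [hh.eq_zero]
    simp [tri]
  have h1 := hT i j k _ _ _ (hf.scale ha) (hg.scale hb) (hh.scale hc)
  rw [tri_smul, abs_mul] at h1
  have habc : 0 < a * b * c := by positivity
  have h2 : |a⁻¹ * b⁻¹ * c⁻¹| = (a * b * c)⁻¹ := by
    rw [abs_of_pos (by positivity)]
    rw [mul_inv, mul_inv]
  rw [h2, inv_mul_le_iff₀ habc] at h1
  linarith

/-- the cubic polynomial in differences -/
noncomputable def pol (x y z : ℝ) : ℝ := (x - y) ^ 2 * (z - (x + y) / 2)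

section slots

variable {T : V → V → V → ℝ}

theorem slot1 (h1 : ∀ y z, ∑ x, T x y z = 0) (F : V → V → ℝ) :
    ∑ p : V × V × V, T p.1 p.2.1 p.2.2 * F p.2.1 p.2.2 = 0 := by
  simp only [Fintype.sum_prod_type]
  rw [Finset.sum_comm]
  refine Finset.sum_eq_zero fun y _ => ?_
  rw [Finset.sum_comm]
  refine Finset.sum_eq_zero fun z _ => ?_
  rw [← Finset.sum_mul, h1, zero_mul]

theorem slot2 (h2 : ∀ x z, ∑ y, T x y z = 0) (F : V → V → ℝ) :
    ∑ p : V × V × V, T p.1 p.2.1 p.2.2 * F p.1 p.2.2 = 0 := by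
  simp only [Fintype.sum_prod_type]
  refine Finset.sum_eq_zero fun x _ => ?_
  rw [Finset.sum_comm]
  refine Finset.sum_eq_zero fun z _ => ?_
  rw [← Finset.sum_mul, h2, zero_mul]

theorem slot3 (h3 : ∀ x y, ∑ z, T x y z = 0) (F : V → V → ℝ) :
    ∑ p : V × V × V, T p.1 p.2.1 p.2.2 * F p.1 p.2.1 = 0 := by
  simp only [Fintype.sum_prod_type]
  refine Finset.sum_eq_zero fun x _ => ?_
  refine Finset.sum_eq_zero fun y _ => ?_
  rw [← Finset.sum_mul, h3, zero_mul]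

/-- 215's identity -/
theorem tri_pol (h1 : ∀ y z, ∑ x, T x y z = 0) (h2 : ∀ x z, ∑ y, T x y z = 0)
    (h3 : ∀ x y, ∑ z, T x y z = 0) (ψ : V → ℝ) :
    ∑ p : V × V × V, T p.1 p.2.1 p.2.2 * pol (ψ p.1) (ψ p.2.1) (ψ p.2.2) = -2 * tri T ψ ψ ψ := by
  have e : ∀ p : V × V × V, T p.1 p.2.1 p.2.2 * pol (ψ p.1) (ψ p.2.1) (ψ p.2.2)
      = T p.1 p.2.1 p.2.2 * (ψ p.1 ^ 2 * ψ p.2.2)
        + T p.1 p.2.1 p.2.2 * (ψ p.2.1 ^ 2 * ψ p.2.2)
        + T p.1 p.2.1 p.2.2 * (-(ψ p.1 ^ 3) / 2 + ψ p.1 ^ 2 * ψ p.2.1 / 2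
            + ψ p.1 * ψ p.2.1 ^ 2 / 2 - ψ p.2.1 ^ 3 / 2)
        + -2 * (T p.1 p.2.1 p.2.2 * (ψ p.1 * ψ p.2.1 * ψ p.2.2)) := by
    intro p
    unfold pol
    ring
  rw [Finset.sum_congr rfl fun p _ => e p]
  rw [Finset.sum_add_distrib, Finset.sum_add_distrib, Finset.sum_add_distrib]
  rw [slot2 h2 (fun x z => ψ x ^ 2 * ψ z), slot1 h1 (fun y z => ψ y ^ 2 * ψ z),
    slot3 h3 (fun x y => -(ψ x ^ 3) / 2 + ψ x ^ 2 * ψ y / 2 + ψ x * ψ y ^ 2 / 2 - ψ y ^ 3 / 2)]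
  rw [← Finset.mul_sum]
  simp only [zero_add]
  rfl

end slots

/-- power of `ψ - c` on a block -/
noncomputable def pw (β : V → I) (ψ : V → ℝ) (c : ℝ) (n : ℕ) (i : I) (x : V) : ℝ :=
  (if β x = i then 1 else 0) * (ψ x - c) ^ n

theorem pw_sub {β : V → I} {ψ : V → ℝ} {c o : ℝ} {i : I}
    (h : ∀ x, β x = i → |ψ x - c| ≤ o) (n : ℕ) : Sub β i (o ^ n) (pw β ψ c n i) := by
  intro x
  unfold pw
  split_ifs with hx
  · rw [one_mul, abs_pow]
    exact pow_le_pow_left₀ (abs_nonneg _) (h x hx) n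
  · simp

theorem block_term {T : V → V → V → ℝ} {β : V → I} {K : I → I → I → ℝ} (hT : TriBd T β K)
    {ψ : V → ℝ} {i j k : I} {c o : ℝ} (ho0 : 0 ≤ o)
    (ho : ∀ x, (β x = i ∨ β x = j ∨ β x = k) → |ψ x - c| ≤ o) :
    |∑ p : V × V × V, (if β p.1 = i then (1 : ℝ) else 0) * (if β p.2.1 = j then (1 : ℝ) else 0)
        * (if β p.2.2 = k then (1 : ℝ) else 0)
        * (T p.1 p.2.1 p.2.2 * pol (ψ p.1) (ψ p.2.1) (ψ p.2.2))| ≤ 6 * (K i j k * o ^ 3) := by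
  have hi : ∀ x, β x = i → |ψ x - c| ≤ o := fun x hx => ho x (Or.inl hx)
  have hj : ∀ x, β x = j → |ψ x - c| ≤ o := fun x hx => ho x (Or.inr (Or.inl hx))
  have hk : ∀ x, β x = k → |ψ x - c| ≤ o := fun x hx => ho x (Or.inr (Or.inr hx))
  have key : ∀ a b d : ℕ, a + b + d = 3 →
      |tri T (pw β ψ c a i) (pw β ψ c b j) (pw β ψ c d k)| ≤ K i j k * o ^ 3 := by
    intro a b d habd
    have := hT.scaled (pow_nonneg ho0 a) (pow_nonneg ho0 b) (pow_nonneg ho0 d)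
      (pw_sub hi a) (pw_sub hj b) (pw_sub hk d)
    rwa [← pow_add, ← pow_add, habd] at this
  have e : (∑ p : V × V × V, (if β p.1 = i then (1 : ℝ) else 0)
        * (if β p.2.1 = j then (1 : ℝ) else 0) * (if β p.2.2 = k then (1 : ℝ) else 0)
        * (T p.1 p.2.1 p.2.2 * pol (ψ p.1) (ψ p.2.1) (ψ p.2.2)))
      = tri T (pw β ψ c 2 i) (pw β ψ c 0 j) (pw β ψ c 1 k)
        - 2 * tri T (pw β ψ c 1 i) (pw β ψ c 1 j) (pw β ψ c 1 k)
        + tri T (pw β ψ c 0 i) (pw β ψ c 2 j) (pw β ψ c 1 k)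
        - 1 / 2 * tri T (pw β ψ c 3 i) (pw β ψ c 0 j) (pw β ψ c 0 k)
        + 1 / 2 * tri T (pw β ψ c 2 i) (pw β ψ c 1 j) (pw β ψ c 0 k)
        + 1 / 2 * tri T (pw β ψ c 1 i) (pw β ψ c 2 j) (pw β ψ c 0 k)
        - 1 / 2 * tri T (pw β ψ c 0 i) (pw β ψ c 3 j) (pw β ψ c 0 k) := by
    unfold tri
    simp only [Finset.mul_sum, ← Finset.sum_add_distrib, ← Finset.sum_sub_distrib]
    refine Finset.sum_congr rfl fun p _ => ?_
    unfold pw pol
    ring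
  rw [e]
  have k1 := abs_le.1 (key 2 0 1 rfl)
  have k2 := abs_le.1 (key 1 1 1 rfl)
  have k3 := abs_le.1 (key 0 2 1 rfl)
  have k4 := abs_le.1 (key 3 0 0 rfl)
  have k5 := abs_le.1 (key 2 1 0 rfl)
  have k6 := abs_le.1 (key 1 2 0 rfl)
  have k7 := abs_le.1 (key 0 3 0 rfl)
  rw [abs_le]
  constructor <;> linarith [k1.1, k1.2, k2.1, k2.2, k3.1, k3.2, k4.1, k4.2, k5.1, k5.2, k6.1,
    k6.2, k7.1, k7.2]

theorem sum_block (β : V → I) (F : V × V × V → ℝ) :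
    ∑ p : V × V × V, F p = ∑ i, ∑ j, ∑ k, ∑ p : V × V × V,
      (if β p.1 = i then (1 : ℝ) else 0) * (if β p.2.1 = j then (1 : ℝ) else 0)
        * (if β p.2.2 = k then (1 : ℝ) else 0) * F p := by
  have h : ∀ p : V × V × V, F p = ∑ i, ∑ j, ∑ k,
      (if β p.1 = i then (1 : ℝ) else 0) * (if β p.2.1 = j then (1 : ℝ) else 0)
        * (if β p.2.2 = k then (1 : ℝ) else 0) * F p := by
    intro p
    simp only [ite_mul, one_mul, zero_mul, mul_ite, mul_zero, mul_one]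
    simp only [Finset.sum_ite_eq, Finset.mem_univ, if_true]
  rw [Finset.sum_congr rfl fun p _ => h p]
  rw [Finset.sum_comm]
  refine Finset.sum_congr rfl fun i _ => ?_
  rw [Finset.sum_comm]
  refine Finset.sum_congr rfl fun j _ => ?_
  rw [Finset.sum_comm]

/-- **TRI2.** -/
theorem tri_le {T : V → V → V → ℝ} {β : V → I} {K : I → I → I → ℝ} (hT : TriBd T β K)
    (h1 : ∀ y z, ∑ x, T x y z = 0) (h2 : ∀ x z, ∑ y, T x y z = 0)
    (h3 : ∀ x y, ∑ z, T x y z = 0) (ψ : V → ℝ) (c o : I → I → I → ℝ)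
    (ho0 : ∀ i j k, 0 ≤ o i j k)
    (ho : ∀ i j k x, (β x = i ∨ β x = j ∨ β x = k) → |ψ x - c i j k| ≤ o i j k) :
    |tri T ψ ψ ψ| ≤ 3 * ∑ i, ∑ j, ∑ k, K i j k * o i j k ^ 3 := by
  have e := tri_pol h1 h2 h3 ψ
  rw [sum_block β] at e
  have hb : |∑ i, ∑ j, ∑ k, ∑ p : V × V × V,
      (if β p.1 = i then (1 : ℝ) else 0) * (if β p.2.1 = j then (1 : ℝ) else 0)
        * (if β p.2.2 = k then (1 : ℝ) else 0)
        * (T p.1 p.2.1 p.2.2 * pol (ψ p.1) (ψ p.2.1) (ψ p.2.2))|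
      ≤ ∑ i, ∑ j, ∑ k, 6 * (K i j k * o i j k ^ 3) := by
    refine (Finset.abs_sum_le_sum_abs _ _).trans (Finset.sum_le_sum fun i _ => ?_)
    refine (Finset.abs_sum_le_sum_abs _ _).trans (Finset.sum_le_sum fun j _ => ?_)
    refine (Finset.abs_sum_le_sum_abs _ _).trans (Finset.sum_le_sum fun k _ => ?_)
    exact block_term hT (ho0 i j k) (ho i j k)
  rw [e, abs_mul] at hb
  simp only [← Finset.mul_sum] at hb
  have h2' : |(-2 : ℝ)| = 2 := by norm_num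
  rw [h2'] at hb
  linarith

/-- **TRI2**, with the oscillation on the union of three blocks. -/
theorem tri_le_osc {T : V → V → V → ℝ} {β : V → I} {K : I → I → I → ℝ} (hT : TriBd T β K)
    (h1 : ∀ y z, ∑ x, T x y z = 0) (h2 : ∀ x z, ∑ y, T x y z = 0)
    (h3 : ∀ x y, ∑ z, T x y z = 0) (ψ : V → ℝ) (o : I → I → I → ℝ)
    (ho0 : ∀ i j k, 0 ≤ o i j k)
    (ho : ∀ i j k x y, (β x = i ∨ β x = j ∨ β x = k) → (β y = i ∨ β y = j ∨ β y = k) →
      |ψ x - ψ y| ≤ o i j k) :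
    |tri T ψ ψ ψ| ≤ 3 * ∑ i, ∑ j, ∑ k, K i j k * o i j k ^ 3 := by
  classical
  have hc : ∀ i j k : I, ∃ c : ℝ, ∀ x, (β x = i ∨ β x = j ∨ β x = k) → |ψ x - c| ≤ o i j k := by
    intro i j k
    by_cases hne : ∃ y, β y = i ∨ β y = j ∨ β y = k
    · obtain ⟨y, hy⟩ := hne
      exact ⟨ψ y, fun x hx => ho i j k x y hx hy⟩
    · exact ⟨0, fun x hx => absurd ⟨x, hx⟩ hne⟩
  choose c hc using hc
  exact tri_le hT h1 h2 h3 ψ c o ho0 hc

end Vale.Agent.P159.TM.H825
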